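import Crest.Agent.X262.Emb40.Ring
import Crest.Agent.X262.Sym65.Defs

/-!
# Row 262, EMB (helper40): the projection formula with a list which depends on the component

* `finsum_rel'` : `Div.finsum_rel` for a list `l V` which depends on the valuation of the base;
* `res_mxf`, `cw_mxf` : restriction of `mxf c` to a component;
* `val_rel`, `val_far`, `sm_rel` : the contribution of a component over `V` in terms of `cw`.
-/

set_option autoImplicit false
set_option linter.unusedSectionVars false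

noncomputable section

namespace Crest.Agent.X262.Emb40

open Crest.Agent.X277 Crest.Agent.X277.BD Crest.Agent.X277.Pst Crest.Agent.X277.BD.Cyc
open Crest.Agent.X262.Geo Crest.Agent.X262.Hb Crest.Agent.X262.Val40 Crest.Agent.X262.Tr89
open Crest.Agent.X262.Div (rn cw spec finsum_fib')
open List (replicate)

variable {k K F : Type} [Field k] [Field K] [Field F] [Algebra k K] [Algebra k F] [CharZero k]
  [Algebra.EssFiniteType k K] [Algebra.EssFiniteType k F]

/-- **projection formula**, the list depends on the component of the base -/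
theorem finsum_rel' {R : Type*} [CommRing R] [IsDomain R] [CharZero R] (α : K →ₐ[k] F)
    (l : RZ k K → List (BD k F)) (n : ℤ) (a : BD k K) (g : RZ k K → R) (g' : RZ k F → R)
    (hn : ∀ V, Dvs V → od V a ≠ 0 → g V ≠ 0 → rn α (l V) = n)
    (h : ∀ W, Dvs W → Dvs (dn α W) → od (dn α W) a ≠ 0 →
      g' W = cw α (l (dn α W)) W * g (dn α W)) :
    ∑ᶠ (W) (_ : Dvs W), (od W (pb α a) : R) * g' W =
      n * ∑ᶠ (V) (_ : Dvs V), (od V a : R) * g V := by
  classical
  rw [← finsum_fib' (dn α)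
    (fun W => if Dvs W then ((ram α W * cw α (l (dn α W)) W : ℤ) : R) else 0) _ fun V hV => ?_]
  · refine finsum_congr fun W => ?_
    rw [finsum_eq_if, finsum_eq_if]
    by_cases hW : Dvs W
    swap
    · rw [if_neg hW, if_neg hW, zero_mul]
    rw [if_pos hW, if_pos hW]
    by_cases h0 : (dn α W).1 = ⊤
    · rw [od_pb_top hW h0, if_neg fun h1 => h1.ne_top h0, Int.cast_zero, zero_mul, mul_zero]
    rw [if_pos (dvs_dn hW h0), od_pb hW h0]
    by_cases h2 : od (dn α W) a = 0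
    · simp [h2]
    · rw [h W hW (dvs_dn hW h0) h2]
      push_cast
      ring
  · have h2 : Dvs V := by
      by_contra h2
      exact hV (by rw [finsum_eq_if, if_neg h2])
    rw [finsum_eq_if, if_pos h2] at hV
    obtain ⟨T, t1, t2, t3⟩ := spec α (l V) h2
    refine ⟨T, fun W hW => (t1 W hW).2, fun W hW h3 => ?_, ?_⟩
    · by_cases h4 : Dvs W
      · rw [if_pos h4, hW] at h3
        exact t2 W h4 hW fun h5 => h3 (by rw [h5, mul_zero, Int.cast_zero])
      · exact (h3 (if_neg h4)).elim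
    · rw [← hn V h2 (Int.cast_ne_zero.1 (left_ne_zero_of_mul hV)) (right_ne_zero_of_mul hV), ← t3,
        Int.cast_sum]
      exact Finset.sum_congr rfl fun W hW => by rw [if_pos (t1 W hW).1, (t1 W hW).2]

/-- the restriction of `mxf c` is given by the residues of a primitive multiple -/
theorem res_mxf {E : Type} [Field E] [Algebra k E] (p : Pl k F k E) {ι : Type} [Fintype ι]
    {c : ι → F} (hc : ∃ i, c i ≠ 0) {t : F} (h1 : p.V.v t = (mxf k c).val p.V) :
    p.res (mxf k c - pr k t) = mxf k fun j => p.r (c j / t) := by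
  have hi := ne_of_val h1
  have h2 := Pl.val_sub_gen h1
  have h3 : ∀ j, c j / t ∈ p.V.1 := fun j => (RZ.le_iff hi).1 (h1 ▸ mem_Sec_mxf c j p.V)
  have h4 : ∀ j, c j / t ∈ (mxf k c - pr k t).Sec := fun j =>
    (mem_Sec_sub_pr hi).2 (by rw [div_mul_cancel₀ _ hi]; exact mem_Sec_mxf c j)
  have h5 : ∀ U : RZ k E, ∃ j, (p.cm U).v (c j / t) = (mxf k c - pr k t).val (p.cm U) :=
    fun U => by
      obtain ⟨j, hj⟩ := exists_val_mxf (k := k) hc (p.cm U)
      exact ⟨j, by rw [map_div₀, hj, val_sub, val_pr hi]⟩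
  refine eq_mxf (fun j U => ?_) fun U => ?_
  · obtain ⟨j', hj⟩ := h5 U
    rw [Pl.val_res h2 hj, ← Pl.v_le_iff (h3 j) (Pl.unit_of_gen h2 hj), hj]
    exact h4 j _
  · obtain ⟨j, hj⟩ := h5 U
    exact ⟨j, (Pl.val_res h2 hj).symm⟩

theorem cw_mxf (α : K →ₐ[k] F) {W : RZ k F} (hW : Dvs W) (hV : Dvs (dn α W)) {ι : Type} [Fintype ι]
    {c : ι → F} (hc : ∃ i, c i ≠ 0) {t : F} (h : W.v t = (mxf k c).val W) (m : ℕ) :
    cw α (replicate m (mxf k c)) W =
      rn (rf α W) (replicate m (mxf k fun j => (plV W).r (c j / t))) := by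
  have := essFT_Rf hW
  have := essFT_Rf hV
  rw [cw, List.map_replicate, ← res_mxf (plV W) hc h]
  refine Div.rn_congr _ ?_
  induction m with
  | zero => exact List.Forall₂.nil
  | succ m ih => exact List.Forall₂.cons (Pl.lin_rs (p := plV W) h) ih

theorem dn_cm_top (α : K →ₐ[k] F) (W : RZ k F) {U : RZ k (Rf W)}
    (h : dn (rf α W) U = RZ.top k _) : dn α ((plV W).cm U) = dn α W := by
  rw [Div.dn_cm, h]
  exact Subtype.ext (ValuationSubring.ext _ _ fun x =>
    Pl.mem_cm.trans (and_iff_left (ValuationSubring.mem_top _)))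

theorem v_lt_one {U V : RZ k F} (h : U.1 ≤ V.1) {x : F} (hx : V.v x < 1) : U.v x < 1 :=
  lt_of_not_ge fun h1 => hx.not_ge (by
    simpa using RZ.le_of_le h (x := 1) (y := x) (by simpa using h1))

section Val

variable {B : Th} {K L : Type} [Field K] [Algebra ℂ K] [Field L] [Algebra ℂ L]
  [Algebra.EssFiniteType ℂ K] [Algebra.EssFiniteType ℂ L] {m : ℕ} {H : BD ℂ L} {V : RZ ℂ L}

theorem dim_rf' (α : K →ₐ[ℂ] L) (hd : dim ℂ L = dim ℂ K + m) (hV : Dvs V) (hW : Dvs (dn α V)) :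
    dim ℂ (Rf V) = dim ℂ (Rf (dn α V)) + m := by
  have h1 := dim_Rf' hV
  have h2 := dim_Rf' hW
  omega

/-- the components over a place with a lift of another degree -/
theorem val_far (hB : B.Ax) (α : K →ₐ[ℂ] L) (hd : dim ℂ L = dim ℂ K + m) (hm : 1 ≤ m) (hV : Dvs V)
    (hW : Dvs (dn α V)) (τ : B.H (Rf (dn α V)))
    (h : ∀ p : RZ ℂ L, dn α p = dn α V → H.val p = 1) :
    B.itg (Rf V) (B.c1 ((plV V).res H) ^ m * B.pb (LP.hom (rf α V)) τ) = 0 := by
  have := essFT_Rf hV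
  have := essFT_Rf hW
  refine ring_b hB _ hm τ (dim_rf' α hd hV hW) fun U hU => ?_
  rw [Pl.val_res (p := plV V) (g := 1) (h V rfl) (by rw [h _ (dn_cm_top α V hU), map_one]),
    Pl.r_one, map_one]

open Classical in
/-- the components over a place with a lift of the given degree -/
theorem val_rel (hB : B.Ax) (α : K →ₐ[ℂ] L) (hd : dim ℂ L = dim ℂ K + m) (hm : 1 ≤ m) (hV : Dvs V)
    (hW : Dvs (dn α V)) (τ : B.H (Rf (dn α V))) (c : Fin (m + 1) → L) (hc : ∀ i, c i ≠ 0)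
    (h : ∀ p : RZ ℂ L, dn α p = dn α V →
      (H.val p = 1 ↔ (mxf ℂ c - mxf ℂ fun i => c (Fin.succ i)).val p = 1) ∧
      ((∀ x, (dn α V).v x < 1 → p.v (α x) * (mxf ℂ c - mxf ℂ fun i => c (Fin.succ i)).val p < 1) →
        H.val p = (mxf ℂ c - mxf ℂ fun i => c (Fin.succ i)).val p)) :
    (if H.val V = 1 then
        (-1) ^ (m + 1) * B.itg (Rf V) (B.c1 ((plV V).res H) ^ m * B.pb (LP.hom (rf α V)) τ)
      else 0) = cw α (replicate m (mxf ℂ c)) V * B.itg (Rf (dn α V)) τ := by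
  have := essFT_Rf hV
  have := essFT_Rf hW
  have h0 : ∃ i : Fin m, c i.succ ≠ 0 := ⟨⟨0, hm⟩, hc _⟩
  obtain ⟨i, hi⟩ := exists_val_mxf (k := ℂ) ⟨0, hc 0⟩ V
  obtain ⟨j, hj⟩ := exists_val_mxf (k := ℂ) (s := fun i : Fin m => c i.succ) h0 V
  have h1 : ∀ l, (plV V).r (c l / c i) ≠ 0 ↔ V.v (c l) = V.v (c i) := fun l => by
    rw [Pl.r_ne_zero_iff, map_div₀]
    exact div_eq_one_iff_eq (RZ.ne_zero_iff.2 (hc i))
  rw [cw_mxf α hV hW ⟨0, hc 0⟩ hi]
  split_ifs with hH
  · have h2 := (h V rfl).1.1 hH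
    have h3 : V.v (c i) = (mxf ℂ fun i : Fin m => c i.succ).val V := by
      rw [val_sub, div_eq_one_iff_eq (val_ne _ _)] at h2
      exact hi.trans h2
    rw [ring_a hB (rf α V) (c := fun l => (plV V).r (c l / c i)) τ (dim_rf' α hd hV hW)
      ⟨j, (h1 _).2 (hj.trans h3.symm)⟩ fun U hU => ?_, ← mul_assoc, ← mul_assoc, ← mul_pow]
    · simp
    have h4 := v_gen (mxf ℂ c - mxf ℂ fun i => c (Fin.succ i)) ((plV V).cm U)
    have h5 := (h _ (dn_cm_top α V hU)).2 fun x hx => by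
      rw [← h4, ← map_mul]
      refine v_lt_one (Pl.cm_le (p := plV V) U) ?_
      rw [map_mul, Pl.unit_of_gen (p := plV V) h2 h4, mul_one]
      exact v_dn_lt_one.1 hx
    rw [← res_mxf (plV V) ⟨0, hc 0⟩ hi, ← res_mxf (plV V) (c := fun i : Fin m => c i.succ) h0 h3,
      ← Pl.res_sub (p := plV V) (Pl.val_sub_gen (p := plV V) hi) (Pl.val_sub_gen (p := plV V) h3),
      sub_sub_sub_cancel_right, Pl.val_res (p := plV V) h2 h4,
      Pl.val_res (p := plV V) hH (h4.trans h5.symm)]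
  · have h2 : ∀ l : Fin m, (plV V).r (c l.succ / c i) = 0 := fun l => by
      by_contra h3
      refine hH ((h V rfl).1.2 ?_)
      rw [val_sub, div_eq_one_iff_eq (val_ne _ _)]
      refine le_antisymm ?_ (hj ▸ mem_Sec_mxf c j.succ V)
      rw [← hi, ← (h1 _).1 h3]
      exact mem_Sec_mxf (k := ℂ) (fun i : Fin m => c i.succ) l V
    rw [ring_c (rf α V) hm (c := fun l => (plV V).r (c l / c i)) ?_ h2, Int.cast_zero, zero_mul]
    have h3 := (h1 i).2 rfl
    rcases Fin.eq_zero_or_eq_succ i with rfl | ⟨l, rfl⟩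
    exacts [h3, absurd (h2 l) h3]

/-- the projection formula -/
theorem sm_rel (α : K →ₐ[ℂ] L) (l : RZ ℂ K → List (BD ℂ L)) (ρ : ℤ) (a : BD ℂ K) (g : RZ ℂ K → ℂ)
    (g' : RZ ℂ L → ℂ) (h1 : ∀ W, Dvs W → od W a ≠ 0 → g W ≠ 0 → rn α (l W) = ρ)
    (h2 : ∀ V, Dvs V → Dvs (dn α V) → od (dn α V) a ≠ 0 →
      g' V = cw α (l (dn α V)) V * g (dn α V)) :
    Sym65.sm (pb α a) g' = ρ * Sym65.sm a g :=
  finsum_rel' α l ρ a g g' h1 h2

end Val

end Crest.Agent.X262.Emb40
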