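import Crest.Agent.X262.Tr89.Pb
import Crest.Agent.X262.Div34.Spec

/-!
# Row 262, EMB (helper40): the self-intersection of the exceptional divisor of a point

* `bnum_disj` : b-divisors with disjoint supports have zero product;
* `bnum_exc`  : `(A - B) ^ m = (-1) ^ (m + 1) A ^ m` for `A = mxf (c 0, …, c m)`,
  `B = mxf (c 1, …, c m)`;
* `ring_a`, `ring_b`, `ring_c`, `ring_d` : the same for integrals along the fibres.
-/

set_option autoImplicit false
set_option linter.unusedSectionVars false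

noncomputable section

namespace Crest.Agent.X262.Emb40

open Crest.Agent.X277 Crest.Agent.X277.BD Crest.Agent.X277.Pst Crest.Agent.X277.BD.Cyc
open Crest.Agent.X262.Geo Crest.Agent.X262.Hb Crest.Agent.X262.Val40 Crest.Agent.X262.Tr89
open Crest.Agent.X262.Div (rn rn_tower tower_ind)
open List (replicate)

section Num

variable {k F : Type} [Field k] [Field F] [Algebra k F] [CharZero k] [Algebra.EssFiniteType k F]

/-- disjoint supports -/
theorem bnum_disj {a b : BD k F} (h : ∀ V, a.val V = 1 ∨ b.val V = 1) (l : List (BD k F)) :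
    bnum (a :: b :: l) = 0 := by
  obtain ⟨T, h1, -, h3⟩ := exists_cyc' a (b :: l)
  rw [h3]
  refine Finset.sum_eq_zero fun V hV => ?_
  by_cases h0 : a.val V = 1
  · rw [(od_eq_zero (h1 V hV)).2 h0, zero_mul]
  have hb := (h V).resolve_left h0
  have := essFT_Rf (h1 V hV)
  have h4 : (plV V).res b = 0 := ext' fun U => by
    have h5 : b.val ((plV V).cm U) = 1 := (h _).resolve_left fun h6 => h0
      ((val_of_le (g := 1) (Pl.cm_le (p := plV V) U) (by rw [h6, map_one])).symm.trans (map_one _))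
    rw [Pl.val_res (g := 1) hb (by rw [h5, map_one]), Pl.r_one, map_one, val_zero]
  rw [Geo.dg_eq, List.map_cons, (Pl.lin_rs_res (p := plV V) hb).bnum_eq, h4, bnum_zero, mul_zero]

theorem bnum_rep_sub {x y z : BD k F} {s : ℤ} (h : ∀ l, bnum (x :: y :: l) = s * bnum (x :: z :: l))
    (j : ℕ) : ∀ l, bnum (x :: (replicate j y ++ l)) = s ^ j * bnum (x :: (replicate j z ++ l)) := by
  induction j with
  | zero => simp
  | succ j ih =>
    intro l
    have h1 : ∀ w : BD k F, bnum (x :: z :: (replicate j w ++ l)) =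
        bnum (x :: (replicate j w ++ z :: l)) := fun w => bnum_perm (List.perm_middle.symm.cons x)
    rw [List.replicate_succ, List.cons_append, h, h1, ih, List.replicate_succ, List.cons_append, h1,
      pow_succ', mul_assoc]

/-- `m` functions define a map to `P ^ (m - 1)` -/
theorem bnum_short {m : ℕ} {b : Fin m → F} (h : ∃ i, b i ≠ 0) :
    bnum (replicate m (mxf k b)) = 0 := by
  obtain ⟨i, hi⟩ := h
  by_contra h0
  have h1 := (algInd_of_dim' (k := k) (s := fun j => b j / b i)
    (by simpa using le_dim_of_bnum hi h0)).transcendental i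
  simp only [div_self hi] at h1
  exact h1 isAlgebraic_one

theorem bnum_base {m : ℕ} {c : Fin (m + 1) → F} (h : ∃ i : Fin m, c i.succ ≠ 0)
    (l : List (BD k F)) : bnum ((mxf k c - mxf k fun i : Fin m => c i.succ) :: mxf k c :: l) = 0 := by
  have key : ∀ V : RZ k F, (mxf k c - mxf k fun i : Fin m => c i.succ).val V = 1 ∨
      V.v (c 0) = (mxf k c).val V := fun V => by
    obtain ⟨i, hi⟩ := exists_val_mxf (k := k) (s := c) (h.imp' Fin.succ fun _ => id) V
    obtain ⟨j, hj⟩ := exists_val_mxf (k := k) (s := fun i : Fin m => c i.succ) h V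
    revert hi
    refine Fin.cases Or.inr (fun i hi => Or.inl ?_) i
    rw [val_sub, div_eq_one_iff_eq (val_ne _ _)]
    exact le_antisymm (hi ▸ mem_Sec_mxf (k := k) (fun i : Fin m => c i.succ) i V)
      (hj ▸ mem_Sec_mxf c j.succ V)
  by_cases h0 : c 0 = 0
  · rw [show (mxf k c - mxf k fun i : Fin m => c i.succ) = 0 from ext' fun V =>
      (key V).resolve_right fun h1 => ne_of_val h1 h0, bnum_zero]
  · have h1 := bnum_disj (b := mxf k c - pr k (c 0)) (fun V => (key V).imp_right fun h1 => by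
      rw [val_sub, val_pr h0, h1, div_self (val_ne _ _)]) l
    rwa [bnum_sub2, bnum_swap _ (pr k _), bnum_pr, sub_zero] at h1

/-- the self-intersection of the exceptional divisor -/
theorem bnum_exc {m : ℕ} {c : Fin (m + 1) → F} (h : ∃ i : Fin m, c i.succ ≠ 0) :
    bnum (replicate m (mxf k c - mxf k fun i : Fin m => c i.succ)) =
      (-1) ^ (m + 1) * bnum (replicate m (mxf k c)) := by
  have h0 := bnum_base (k := k) h
  have h1 := bnum_short (k := k) h
  obtain _ | m := m
  · exact h.elim fun i _ => i.elim0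
  generalize mxf k c = a at h0 ⊢
  generalize (mxf k fun i : Fin (m + 1) => c i.succ) = b at h0 h1 ⊢
  have h2 := bnum_rep_sub (x := a - b) (y := a - b) (z := b) (s := -1)
    (fun l => by rw [bnum_sub2, h0, zero_sub, neg_one_mul]) m []
  have h3 := bnum_rep_sub (x := a) (y := a) (z := b) (s := 1) (fun l => by
    have := h0 l
    rw [bnum_swap, bnum_sub2] at this
    omega) m []
  rw [List.replicate_succ] at h1
  simp only [List.append_nil, one_pow, one_mul] at h2 h3
  rw [List.replicate_succ, List.replicate_succ, h2, h3, bnum_sub, h1, sub_zero, pow_succ, pow_succ]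
  ring

end Num

section Rel

variable {k K L : Type} [Field k] [Field K] [Field L] [Algebra k K] [Algebra k L] [CharZero k]

theorem dn_top_iff {α : K →ₐ[k] L} {w : RZ k L} : dn α w = RZ.top k K ↔ ∀ x, α x ∈ w.1 :=
  ⟨fun h x => mem_dn.1 (h ▸ ValuationSubring.mem_top x), fun h =>
    Subtype.ext (top_unique fun x _ => mem_dn.2 (h x))⟩

variable [Algebra.EssFiniteType k L]

/-- the relative number only depends on the valuations which are trivial on the base -/
theorem rn_rep (α : K →ₐ[k] L) {a b : BD k L} (h : ∀ w, dn α w = RZ.top k K → a.val w = b.val w)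
    (m : ℕ) : rn α (replicate m a) = rn α (replicate m b) := by
  induction α using tower_ind with
  | h =>
    rw [rn_tower, rn_tower, List.map_replicate, List.map_replicate,
      show up K a = up K b from ext' fun W => by
        rw [val_up, val_up]; exact h _ (dn_top_iff.2 W.2)]

theorem rn_exc (α : K →ₐ[k] L) {m : ℕ} {c : Fin (m + 1) → L} (h : ∃ i : Fin m, c i.succ ≠ 0) :
    rn α (replicate m (mxf k c - mxf k fun i : Fin m => c i.succ)) =
      (-1) ^ (m + 1) * rn α (replicate m (mxf k c)) := by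
  induction α using tower_ind with
  | h =>
    rw [rn_tower, rn_tower, List.map_replicate, List.map_replicate, map_sub, up_mxf, up_mxf,
      bnum_exc h]

theorem rn_pr (α : K →ₐ[k] L) {m : ℕ} (hm : 1 ≤ m) (g : L) : rn α (replicate m (pr k g)) = 0 := by
  induction α using tower_ind with
  | h =>
    obtain ⟨m, rfl⟩ := Nat.exists_eq_add_of_le' hm
    rw [rn_tower, List.map_replicate, up_pr, List.replicate_succ, bnum_pr]

/-- (c) -/
theorem ring_c (α : K →ₐ[k] L) {n m : ℕ} (hm : 1 ≤ m) {c : Fin (n + 1) → L} (h0 : c 0 ≠ 0)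
    (h : ∀ i : Fin n, c i.succ = 0) : rn α (replicate m (mxf k c)) = 0 := by
  rw [show mxf k c = pr k (c 0) from ext' fun V => by
    rw [val_pr h0]
    exact val_mxf h0 fun j => Fin.cases le_rfl (fun j => by simp [h j]) j, rn_pr α hm]

theorem val_mxf_le (α : K →ₐ[k] L) {ι X : Type} [Fintype ι] [Fintype X] {c : ι → L} {u : X → L}
    {P : ι → X → K} (hc : ∀ i, c i = ∑ x, α (P i x) * u x) (h0 : ∃ i, c i ≠ 0) {w : RZ k L}
    (hw : dn α w = RZ.top k K) : (mxf k c).val w ≤ (mxf k u).val w := by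
  obtain ⟨i, hi⟩ := exists_val_mxf (k := k) h0 w
  rw [← hi, hc]
  refine Valuation.map_sum_le _ fun x _ => ?_
  rw [map_mul]
  exact (mul_le_of_le_one_left' (RZ.le_one_iff.2 (dn_top_iff.1 hw _))).trans (mem_Sec_mxf u x w)

/-- (d) -/
theorem ring_d (α : K →ₐ[k] L) {ι X : Type} [Fintype ι] [Fintype X] {c : ι → L} {u : X → L}
    {P : ι → X → K} {Q : X → ι → K} (hc : ∀ i, c i = ∑ x, α (P i x) * u x)
    (hu : ∀ x, u x = ∑ i, α (Q x i) * c i) (h0 : u ≠ 0) (m : ℕ) :
    rn α (replicate m (mxf k c)) = rn α (replicate m (mxf k u)) := by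
  have h1 : ∃ x, u x ≠ 0 := Function.ne_iff.1 h0
  have h2 : ∃ i, c i ≠ 0 := by
    by_contra! h3
    exact h0 (funext fun x => by simp [hu x, h3])
  exact rn_rep α (fun w hw => le_antisymm (val_mxf_le α hc h2 hw) (val_mxf_le α hu h1 hw)) m

end Rel

variable {B : Th} {E F : Type} [Field E] [Algebra ℂ E] [Field F] [Algebra ℂ F]
  [Algebra.EssFiniteType ℂ E] [Algebra.EssFiniteType ℂ F]

/-- integration along the fibres of an embedding -/
theorem fib_rn (hB : B.Ax) (β : E →ₐ[ℂ] F) (τ : B.H E) (l : List (BD ℂ F))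
    (h : l.length + dim ℂ E ≤ dim ℂ F) :
    B.itg F (pc B l * B.pb (LP.hom β) τ) = rn β l * B.itg E τ := by
  induction β using tower_ind with
  | h => rw [rn_tower, fib hB τ l h]

theorem itg_pow (hB : B.Ax) (β : E →ₐ[ℂ] F) (τ : B.H E) {m : ℕ} (hd : m + dim ℂ E ≤ dim ℂ F)
    (h : BD ℂ F) :
    B.itg F (B.c1 h ^ m * B.pb (LP.hom β) τ) = rn β (replicate m h) * B.itg E τ := by
  rw [← pc_replicate, fib_rn hB β τ _ (by simpa using hd)]

/-- (a) -/
theorem ring_a (hB : B.Ax) (β : E →ₐ[ℂ] F) {m : ℕ} {c : Fin (m + 1) → F} (τ : B.H E)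
    (hd : dim ℂ F = dim ℂ E + m) {h : BD ℂ F} (hc : ∃ i : Fin m, c i.succ ≠ 0)
    (hh : ∀ w : RZ ℂ F, dn β w = RZ.top ℂ E →
      h.val w = (mxf ℂ c - mxf ℂ fun i : Fin m => c i.succ).val w) :
    B.itg F (B.c1 h ^ m * B.pb (LP.hom β) τ) =
      (-1) ^ (m + 1) * rn β (replicate m (mxf ℂ c)) * B.itg E τ := by
  rw [itg_pow hB β τ (by omega), rn_rep β hh, rn_exc β hc]
  push_cast
  rfl

/-- (b) -/
theorem ring_b (hB : B.Ax) (β : E →ₐ[ℂ] F) {m : ℕ} (hm : 1 ≤ m) (τ : B.H E)
    (hd : dim ℂ F = dim ℂ E + m) {h : BD ℂ F}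
    (hh : ∀ w : RZ ℂ F, dn β w = RZ.top ℂ E → h.val w = 1) :
    B.itg F (B.c1 h ^ m * B.pb (LP.hom β) τ) = 0 := by
  rw [itg_pow hB β τ (by omega), rn_rep β (b := pr ℂ 1) (fun w hw => by
    rw [hh w hw, val_pr one_ne_zero, map_one]), rn_pr β hm, Int.cast_zero, zero_mul]

end Crest.Agent.X262.Emb40
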